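import Vale.Agent.P281.H64.Z5.Core
import Vale.Agent.P281.H64.Z.HkC
import Vale.Agent.P281.H702.Z.Br2
import Vale.Agent.P281.H303.Z3.Log
import Vale.Agent.P281.H740.TM.Tm

/-!
# P281, Towers v3 (helper64): the inputs HKLe, TMLe, LogLe
-/

open Set
open Vale.Agent.P281 Vale.Agent.P281.H713.TZ.S
open scoped Manifold ContDiff Topology

set_option linter.all false

noncomputable section

namespace Vale.Agent.P281.H64.Z5

theorem hkLe : HKLe := by
  intro p d X Y _ _ _ _ f Δ hd hf hC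
  obtain ⟨X₁, _, _, u, hu, hw⟩ := hC
  obtain ⟨H, hH, hm⟩ := Z.thkC p d X Y X₁ f Δ u hd hf hu hw
  refine ⟨H, hH, fun y hy F F' _ _ _ _ _ _ i π hi hπ hs => ?_⟩
  have := hπ.1
  have := hf.manifold.1
  have hc := (StatV.isCover_iff.1 hπ).fibre hi
  have := hc.manifold
  exact hm y hy F' (fun t => i (π t)) hc (H702.Z.sympl_hk hs)

theorem logLe : LogLe := fun n p X Y _ _ _ _ f Δ Γ hf hΓ =>
  H303.Z3.logLe n p X Y f Δ Γ hf hΓ

theorem tmLe : TMLe := by
  intro p X Y _ _ _ _ f Δ _ he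
  obtain ⟨-, Z, _, _, g, h, hg, hh, hfg, hΔ, hG⟩ := he
  obtain rfl : f = fun x => h (g x) := funext hfg
  refine H740.TM.tm p X Z Y g h Δ hg hh (fun H hH => ?_) hΔ
  obtain ⟨z, hz, G, _, _, _, i, η, hi, hη, hv⟩ := hG H hH
  exact ⟨z, hz, G, _, inferInstance, _, i, hi, fun _ => η, fun _ => hη, fun x v h0 => hv x v (h0 0)⟩

end Vale.Agent.P281.H64.Z5
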