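import Vale.Agent.P281.H64.Z5.Core
import Vale.Agent.P281.H702.Z.Br3
import Vale.Agent.P281.H364.MM.Fin

/-!
# P281, Towers v3 (helper64): the inputs HTLe and FibMod
-/

open Set
open Vale.Agent.P281 Vale.Agent.P281.H713.TZ.S
open scoped Manifold ContDiff Topology

set_option linter.all false

noncomputable section

namespace Vale.Agent.P281.H64.Z5

theorem htLe_of (thkt : H83.HKT.THKTStmt) : HTLe := by
  intro p d X Y _ _ _ _ f Δ hd hf hK
  obtain ⟨H, hH, hm⟩ := thkt p d X Y f Δ hd hf hK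
  refine ⟨H, hH, fun y hy F F' _ _ _ _ _ i π hi hπ hs => ?_⟩
  have := hπ.1
  have := hf.manifold.1
  have hc := (StatV.isCover_iff.1 hπ).fibre hi
  have := hc.manifold
  exact hm y hy F' (fun t => i (π t)) hc (H702.Z.isTH_of hs)

theorem fibMod : FibMod := fun p k X Y X₁ Y₁ _ _ _ _ _ _ _ _ f f₁ Δ Δ₁ hf hf₁ hs H₁ hH₁ =>
  H364.MM.fibMod p k X Y X₁ Y₁ f f₁ Δ Δ₁ hf hf₁ hs H₁ hH₁

end Vale.Agent.P281.H64.Z5
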