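import Vale.Agent.P281.H64.Z5.Core
import Vale.Agent.P281.H364.MM.StepFin

/-!
# P281, Towers v3 (helper64): the input StepLe
-/

open Set
open Vale.Agent.P281 Vale.Agent.P281.H713.TZ.S
open scoped Manifold ContDiff Topology

set_option linter.all false

noncomputable section

namespace Vale.Agent.P281.H64.Z5

theorem stepLe : StepLe := fun n p X Y X₁ Y₁ _ _ _ _ _ _ _ _ f f₁ Δ Δ₁ hf hf₁ hs =>
  H364.MM.stepLe n p X Y X₁ Y₁ f f₁ Δ Δ₁ hf hf₁ hs

end Vale.Agent.P281.H64.Z5
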