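import Vale.Agent.P281.H64.Z5.FinA
import Vale.Agent.P281.H64.Z5.FinB
import Vale.Agent.P281.H64.Z5.FinC
import Vale.Agent.P281.H83.HKT.Fin

/-!
# P281, Towers v3 (helper64): the input HTLe (X Kähler)
-/

noncomputable section

namespace Vale.Agent.P281.H64.Z5

theorem htLe : HTLe := htLe_of H83.HKT.thkt

end Vale.Agent.P281.H64.Z5
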